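import Vale.Agent.P076.Main.Fin

open MeasureTheory
open Vale.Agent.P076 Vale.Agent.P076.H791

/-- Carleson's problem at the Sobolev endpoint in the plane: for every `f ∈ H^{1/3}(ℝ²)`
(`g` is its Fourier transform) one has `e^{itΔ}f(x) → f(x)` as `t ↓ 0` for almost every `x`;
moreover for almost every `x` the value `e^{itΔ}f(x)` exists for all real times and is a continuous
function of the time. -/
theorem Vale.Agent.Results.P076.CarlesonEndpoint.result
    (f g : (Fin 2 → ℝ) → ℂ) (hfg : IsFourierPair f g)
    (hf : Integrable (fun ξ => (1 + nrm ξ ^ 2) ^ critExp 2 * ‖g ξ‖ ^ 2)) :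
    ConvergesAE f g ∧ ConvergesStrongly f g :=
  Vale.Agent.P076.Main.endpoint f g hfg hf
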